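/-
helper538, row 96, p ≤ 2: [EN-D0] the energy half of `coarse_E` alone (any set of translates),
and the composition of two bad sets (large set of translates, small set of translates).
-/
import Mathlib
import Crest.Agent.R96.Intr29_538

set_option autoImplicit false
set_option linter.unusedSectionVars false
set_option maxHeartbeats 400000

open MeasureTheory Set Filter Metric Module
open scoped ENNReal NNReal Topology

namespace Crest.Agent.R96.End_538

open Crest.AnalysisR.VecCalc3 Crest.AnalysisR.Sobolev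
open Crest.Agent.R96.Acl_392 Crest.Agent.R96.Lu_538 Crest.Agent.R96.Intr_538
open Crest.Agent.R96.Poi_392 Crest.Agent.R96.Coarse_538

noncomputable section

/-- **[EN-D0]**: finitely many weighted energies for one set `D` of translates; nothing else is
asked from `D`.  `δE` depends on the densities, the constants and `εE` only. -/
theorem energies {m : ℕ} {g : Fin m → R3 → ℝ≥0∞} (hg : ∀ l, AEMeasurable (g l) volume)
    (hgi : ∀ l, ∫⁻ y, g l y ≠ ∞) {nE ncE : Fin m → ℝ} {θ εE : ℝ} (hnE : ∀ l, 0 < nE l)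
    (hncE : ∀ l, 0 < ncE l) (hθ : 0 < θ) (hεE : 0 < εE) :
    ∃ δE : ℝ, 0 < δE ∧ ∀ s : ℝ, 0 < s → ∀ (a₀ : R3) (D : Set R3), MeasurableSet D →
      volume D ≠ 0 → volume D ≠ ∞ →
      ∀ (μ : Fin m → R3 → Measure R3), (∀ l, RM D (ENNReal.ofReal (nE l)) (μ l)) →
      (∀ l, ∀ a ∈ D, ∀ k : Fin 3 → ℤ, μ l a (cel Cb (vt (2 * s) a₀ k) s) ≤
        ENNReal.ofReal (ncE l * (2 * s) ^ 3)) →
      ∀ (E : Fin m → Set R3), (∀ l, MeasurableSet (E l)) →
      ∃ B : Set R3, volume B ≤ ENNReal.ofReal θ * volume D ∧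
        ∀ a ∈ D, a ∉ B → ∀ l, ∀ Z : Finset (Fin 3 → ℤ), (Z.card : ℝ) * (2 * s) ^ 3 ≤ δE →
          ∫⁻ y in E l ∪ ⋃ k ∈ Z, cel Cb (vt (2 * s) a₀ k) s, g l y ∂μ l a ≤
            ENNReal.ofReal ((m + 1) * nE l / θ) * (∫⁻ y in E l, g l y) +
              ENNReal.ofReal εE := by
  classical
  have hθ' : 0 < θ / ((m:ℝ) + 1) := by positivity
  have hen := fun l => energy_M (hg l) (hgi l) (hnE l) (hncE l) hθ' hεE
  choose δE hδE HE using hen
  obtain ⟨δ', hδ', hδ'E⟩ : ∃ δ' : ℝ, 0 < δ' ∧ ∀ l, δ' ≤ δE l := by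
    rcases isEmpty_or_nonempty (Fin m) with h0 | h0
    · exact ⟨1, one_pos, fun l => (h0.false l).elim⟩
    · refine ⟨Finset.univ.inf' Finset.univ_nonempty δE, ?_,
        fun l => Finset.inf'_le _ (Finset.mem_univ l)⟩
      rw [Finset.lt_inf'_iff]
      exact fun l _ => hδE l
  refine ⟨δ', hδ', fun s hs a₀ D hD hV0 hVDt μ hμ hcount E hE => ?_⟩
  have hEl := fun l => HE l s hs a₀ (μ l) D hD hV0 hVDt (hμ l) (hcount l) (E l) (hE l)
  choose B₂ hB₂ HB₂ using hEl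
  refine ⟨⋃ l, B₂ l, ?_, fun a haD haB l Z hZ => ?_⟩
  · refine (measure_iUnion_fintype_le _ _).trans ?_
    refine (Finset.sum_le_sum fun l _ => hB₂ l).trans ?_
    rw [Finset.sum_const, Finset.card_univ, Fintype.card_fin, nsmul_eq_mul, ← mul_assoc,
      ← ENNReal.ofReal_natCast, ← ENNReal.ofReal_mul (Nat.cast_nonneg _)]
    gcongr
    have : (m:ℝ) ≤ m + 1 := by linarith
    rw [mul_div_assoc', div_le_iff₀ (by positivity)]
    nlinarith
  · have hn : a ∉ B₂ l := fun h => haB (mem_iUnion.2 ⟨l, h⟩)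
    have h := HB₂ l a haD hn Z (hZ.trans (hδ'E l))
    refine h.trans (add_le_add_left (mul_le_mul_left (ENNReal.ofReal_le_ofReal (le_of_eq ?_)) _) _)
    field_simp

/-- `θ = 1/2`: the form of 753. -/
theorem energies_half {m : ℕ} {g : Fin m → R3 → ℝ≥0∞} (hg : ∀ l, AEMeasurable (g l) volume)
    (hgi : ∀ l, ∫⁻ y, g l y ≠ ∞) {nE ncE : Fin m → ℝ} {εE : ℝ} (hnE : ∀ l, 0 < nE l)
    (hncE : ∀ l, 0 < ncE l) (hεE : 0 < εE) :
    ∃ δE : ℝ, 0 < δE ∧ ∀ s : ℝ, 0 < s → ∀ (a₀ : R3) (D : Set R3), MeasurableSet D →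
      volume D ≠ 0 → volume D ≠ ∞ →
      ∀ (μ : Fin m → R3 → Measure R3), (∀ l, RM D (ENNReal.ofReal (nE l)) (μ l)) →
      (∀ l, ∀ a ∈ D, ∀ k : Fin 3 → ℤ, μ l a (cel Cb (vt (2 * s) a₀ k) s) ≤
        ENNReal.ofReal (ncE l * (2 * s) ^ 3)) →
      ∀ (E : Fin m → Set R3), (∀ l, MeasurableSet (E l)) →
      ∃ B : Set R3, volume B ≤ ENNReal.ofReal (1/2) * volume D ∧
        ∀ a ∈ D, a ∉ B → ∀ l, ∀ Z : Finset (Fin 3 → ℤ), (Z.card : ℝ) * (2 * s) ^ 3 ≤ δE →
          ∫⁻ y in E l ∪ ⋃ k ∈ Z, cel Cb (vt (2 * s) a₀ k) s, g l y ∂μ l a ≤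
            ENNReal.ofReal (2 * (m + 1) * nE l) * (∫⁻ y in E l, g l y) +
              ENNReal.ofReal εE := by
  obtain ⟨δE, h0, h⟩ := energies hg hgi hnE hncE (by norm_num : (0:ℝ) < 1/2) hεE
  refine ⟨δE, h0, fun s hs a₀ D hD hV0 hVDt μ hμ hcount E hE => ?_⟩
  obtain ⟨B, hB, h1⟩ := h s hs a₀ D hD hV0 hVDt μ hμ hcount E hE
  refine ⟨B, hB, fun a ha haB l Z hZ => ?_⟩
  refine (h1 a ha haB l Z hZ).trans
    (add_le_add_left (mul_le_mul_left (ENNReal.ofReal_le_ofReal (le_of_eq ?_)) _) _)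
  ring

/-- **TWO SETS OF TRANSLATES**: a bad set of the large set `T`, small against the small set `D`, and
a bad set of `D`: a good position in `D` exists. -/
theorem exists_good {D B1 B2 : Set R3} (hV0 : volume D ≠ 0) (hVt : volume D ≠ ∞)
    (h1 : volume B1 ≤ ENNReal.ofReal (1/8) * volume D)
    (h2 : volume B2 ≤ ENNReal.ofReal (1/2) * volume D) : ∃ a ∈ D, a ∉ B1 ∧ a ∉ B2 := by
  by_contra hcon
  push Not at hcon
  have hsub : D ⊆ B1 ∪ B2 := fun a ha => by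
    by_cases h : a ∈ B1
    · exact Or.inl h
    · exact Or.inr (hcon a ha h)
  have h3 : volume D ≤ ENNReal.ofReal (5/8) * volume D := by
    calc volume D ≤ volume (B1 ∪ B2) := measure_mono hsub
      _ ≤ volume B1 + volume B2 := measure_union_le _ _
      _ ≤ ENNReal.ofReal (1/8) * volume D + ENNReal.ofReal (1/2) * volume D :=
          add_le_add h1 h2
      _ = ENNReal.ofReal (5/8) * volume D := by
          rw [← add_mul, ← ENNReal.ofReal_add (by norm_num) (by norm_num)]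
          norm_num
  have h4 : ENNReal.ofReal (5/8) * volume D < 1 * volume D := by
    refine ENNReal.mul_lt_mul_left hV0 hVt ?_
    rw [← ENNReal.ofReal_one]
    exact (ENNReal.ofReal_lt_ofReal_iff one_pos).2 (by norm_num)
  rw [one_mul] at h4
  exact absurd h3 (not_le.2 h4)

end

end Crest.Agent.R96.End_538
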