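/-
helper199, row 96, macro average (527 #9438, 348's macro cubes): a good offset of a macro grid for
finitely many nonnegative quantities at the same time (pure counting).
-/
import Mathlib

set_option autoImplicit false

open Set Filter
open scoped Topology ENNReal

namespace Crest.Agent.R96.Mac1_199

noncomputable section

/-- finitely many nonnegative functions on a finite set of offsets: one offset is good for all -/
theorem exists_offset {O J : Type*} [Fintype O] [Nonempty O] [Fintype J] (F : J → O → ℝ≥0∞) :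
    ∃ o, ∀ j, F j o ≤ Fintype.card J * ((∑ o', F j o') / Fintype.card O) := by
  classical
  set S : J → ℝ≥0∞ := fun j => ∑ o', F j o' with hS
  have hO0 : (Fintype.card O : ℝ≥0∞) ≠ 0 := by simp [Fintype.card_ne_zero]
  have hO1 : (Fintype.card O : ℝ≥0∞) ≠ ∞ := ENNReal.natCast_ne_top _
  have h1 : ∑ o, ∑ j, F j o / S j ≤ ∑ _o : O, (Fintype.card J : ℝ≥0∞) / Fintype.card O := by
    rw [Finset.sum_comm]
    have h2 : ∀ j, ∑ o, F j o / S j ≤ 1 := by
      intro j
      have : ∑ o, F j o / S j = S j / S j := by
        simp only [div_eq_mul_inv, hS]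
        rw [Finset.sum_mul]
      rw [this]
      exact ENNReal.div_self_le_one
    calc ∑ j, ∑ o, F j o / S j ≤ ∑ _j : J, (1:ℝ≥0∞) := Finset.sum_le_sum fun j _ => h2 j
      _ = Fintype.card J := by simp
      _ = ∑ _o : O, (Fintype.card J : ℝ≥0∞) / Fintype.card O := by
          rw [Finset.sum_const, Finset.card_univ, nsmul_eq_mul, ENNReal.mul_div_cancel hO0 hO1]
  obtain ⟨o, -, ho⟩ := ENNReal.exists_le_of_sum_le (s := Finset.univ) Finset.univ_nonempty h1
  refine ⟨o, fun j => ?_⟩
  have h3 : F j o / S j ≤ (Fintype.card J : ℝ≥0∞) / Fintype.card O :=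
    (Finset.single_le_sum (f := fun j => F j o / S j) (fun _ _ => zero_le)
      (Finset.mem_univ j)).trans ho
  have hJ : (Fintype.card J : ℝ≥0∞) ≠ 0 := by
    have : Nonempty J := ⟨j⟩
    simp [Fintype.card_ne_zero]
  have hle : F j o ≤ S j := Finset.single_le_sum (f := fun o => F j o) (fun _ _ => zero_le)
    (Finset.mem_univ o)
  by_cases h0 : S j = 0
  · rw [h0] at hle
    exact hle.trans (zero_le)
  by_cases h4 : S j = ∞
  · have : S j / (Fintype.card O : ℝ≥0∞) = ∞ := by rw [h4]; exact ENNReal.top_div_of_ne_top hO1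
    change F j o ≤ Fintype.card J * (S j / Fintype.card O)
    rw [this, ENNReal.mul_top hJ]
    exact le_top
  · rw [ENNReal.div_le_iff h0 h4] at h3
    refine h3.trans (le_of_eq ?_)
    rw [div_eq_mul_inv, div_eq_mul_inv]
    ring

/-- **macro average**: items `a` (mesh edges, mesh cells, ...) with weights `w j a`; the item `a` is
hit by at most the fraction `c j` of the offsets. One offset is good for all `j`. -/
theorem macro_average {O J A : Type*} [Fintype O] [Nonempty O] [Fintype J] (w : J → A → ℝ≥0∞)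
    (Hit : J → A → O → Prop) (c : J → ℝ≥0∞)
    (hc : ∀ j a, ({o | Hit j a o}.ncard : ℝ≥0∞) ≤ c j * Fintype.card O) :
    ∃ o, ∀ j, ∑' a : {a // Hit j a o}, w j a.1 ≤ Fintype.card J * (c j * ∑' a, w j a) := by
  classical
  have hO0 : (Fintype.card O : ℝ≥0∞) ≠ 0 := by simp [Fintype.card_ne_zero]
  have hO1 : (Fintype.card O : ℝ≥0∞) ≠ ∞ := ENNReal.natCast_ne_top _
  obtain ⟨o, ho⟩ := exists_offset (fun j o => ∑' a : {a // Hit j a o}, w j a.1)
  refine ⟨o, fun j => (ho j).trans ?_⟩
  gcongr
  rw [ENNReal.div_le_iff hO0 hO1]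
  have h1 : ∀ o, ∑' a : {a // Hit j a o}, w j a.1 = ∑' a, if Hit j a o then w j a else 0 := by
    intro o
    have := tsum_subtype {a | Hit j a o} (fun a => w j a)
    refine this.trans ?_
    congr 1
  calc ∑ o', ∑' a : {a // Hit j a o'}, w j a.1
      = ∑ o', ∑' a, (if Hit j a o' then w j a else 0) := Finset.sum_congr rfl fun o _ => h1 o
    _ = ∑' a, ∑ o', (if Hit j a o' then w j a else 0) :=
        (Summable.tsum_finsetSum fun _ _ => ENNReal.summable).symm
    _ ≤ ∑' a, c j * Fintype.card O * w j a := by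
        apply ENNReal.tsum_le_tsum
        intro a
        rw [← Finset.sum_filter, Finset.sum_const, nsmul_eq_mul]
        gcongr
        have h2 : (Finset.univ.filter fun o => Hit j a o).card = {o | Hit j a o}.ncard := by
          rw [← Set.ncard_coe_finset]
          congr 1
          ext o
          simp
        rw [h2]
        exact hc j a
    _ = c j * (∑' a, w j a) * Fintype.card O := by
        rw [ENNReal.tsum_mul_left]; ring

/-- number of offsets of a macro grid which hit an item: the item has the position `p i` in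
direction `i`, the wall window in direction `i` is `W i` -/
theorem card_hit {d m : ℕ} [NeZero m] (I : Finset (Fin d)) (p : Fin d → ZMod m)
    (W : Fin d → Finset (ZMod m)) :
    ({o : Fin d → ZMod m | ∃ i ∈ I, p i - o i ∈ W i}.ncard : ℝ≥0∞) ≤
      ((∑ i ∈ I, (W i).card : ℕ) : ℝ≥0∞) / m * Fintype.card (Fin d → ZMod m) := by
  classical
  have hm0 : (m:ℝ≥0∞) ≠ 0 := by simp [NeZero.ne m]
  have hm1 : (m:ℝ≥0∞) ≠ ∞ := ENNReal.natCast_ne_top m
  -- one direction
  have h1 : ∀ i : Fin d, {o : Fin d → ZMod m | p i - o i ∈ W i}.ncard * m =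
      (W i).card * Fintype.card (Fin d → ZMod m) := by
    intro i
    have e1 : Fintype.card (Fin d → ZMod m) = m * Fintype.card ({j : Fin d // j ≠ i} → ZMod m) := by
      rw [Fintype.card_congr (Equiv.funSplitAt i (ZMod m)), Fintype.card_prod, ZMod.card]
    have e2 : {o : Fin d → ZMod m | p i - o i ∈ W i}.ncard =
        (W i).card * Fintype.card ({j : Fin d // j ≠ i} → ZMod m) := by
      have e3 : {o : Fin d → ZMod m | p i - o i ∈ W i} =
          (Equiv.funSplitAt i (ZMod m)).symm ''
            (((W i).image (fun x => p i - x) ×ˢ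
              (Finset.univ : Finset ({j : Fin d // j ≠ i} → ZMod m)) :
                Finset (ZMod m × ({j : Fin d // j ≠ i} → ZMod m))) :
                  Set (ZMod m × ({j : Fin d // j ≠ i} → ZMod m))) := by
        ext o
        constructor
        · intro ho
          refine ⟨Equiv.funSplitAt i (ZMod m) o, ?_, Equiv.symm_apply_apply _ _⟩
          simp only [Finset.coe_product, Finset.coe_image, Finset.coe_univ, mem_prod, mem_image,
            Finset.mem_coe, mem_univ, and_true, Equiv.funSplitAt_apply]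
          exact ⟨p i - o i, ho, by abel⟩
        · rintro ⟨y, hy, rfl⟩
          simp only [Finset.coe_product, Finset.coe_image, Finset.coe_univ, mem_prod, mem_image,
            Finset.mem_coe, mem_univ, and_true] at hy
          obtain ⟨x, hx, hxy⟩ := hy
          have e4 : ((Equiv.funSplitAt i (ZMod m)).symm y) i = y.1 := by
            have := congrArg Prod.fst (Equiv.apply_symm_apply (Equiv.funSplitAt i (ZMod m)) y)
            simpa using this
          change p i - ((Equiv.funSplitAt i (ZMod m)).symm y) i ∈ W i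
          rw [e4, ← hxy]
          simpa using hx
      rw [e3, Set.ncard_image_of_injective _ (Equiv.injective _), Set.ncard_coe_finset,
        Finset.card_product, Finset.card_univ, Finset.card_image_of_injective]
      intro x y hxy
      simpa using hxy
    rw [e1, e2]; ring
  have h2 : {o : Fin d → ZMod m | ∃ i ∈ I, p i - o i ∈ W i}.ncard ≤
      ∑ i ∈ I, {o : Fin d → ZMod m | p i - o i ∈ W i}.ncard := by
    have : {o : Fin d → ZMod m | ∃ i ∈ I, p i - o i ∈ W i} =
        ⋃ i ∈ I, {o : Fin d → ZMod m | p i - o i ∈ W i} := by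
      ext o; simp
    rw [this]
    exact Finset.set_ncard_biUnion_le I _
  have h3 : ({o : Fin d → ZMod m | ∃ i ∈ I, p i - o i ∈ W i}.ncard : ℝ≥0∞) * m ≤
      ((∑ i ∈ I, (W i).card : ℕ) : ℝ≥0∞) * Fintype.card (Fin d → ZMod m) := by
    have h4 : {o : Fin d → ZMod m | ∃ i ∈ I, p i - o i ∈ W i}.ncard * m ≤
        (∑ i ∈ I, (W i).card) * Fintype.card (Fin d → ZMod m) := by
      refine (Nat.mul_le_mul_right m h2).trans (le_of_eq ?_)
      rw [Finset.sum_mul, Finset.sum_mul]
      exact Finset.sum_congr rfl fun i _ => h1 i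
    exact_mod_cast h4
  rw [div_eq_mul_inv, mul_right_comm, ← div_eq_mul_inv, ENNReal.le_div_iff_mul_le (Or.inl hm0)
    (Or.inl hm1)]
  exact h3

/-- **macro grid**: offsets `o ∈ (Z/m)^d`, quantities `j`, items `a` with position `p j a` (integer
coordinates), hit in the directions `I j` if `p - o ∈ W j i` (mod `m`). -/
theorem macro_grid {d m : ℕ} [NeZero m] {J A : Type*} [Fintype J] (w : J → A → ℝ≥0∞)
    (I : J → A → Finset (Fin d)) (p : J → A → Fin d → ℤ) (W : J → Fin d → Finset (ZMod m))
    (k : J → ℕ) (hk : ∀ j a, ∑ i ∈ I j a, (W j i).card ≤ k j) :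
    ∃ o : Fin d → ZMod m, ∀ j,
      ∑' a : {a // ∃ i ∈ I j a, ((p j a i : ℤ) : ZMod m) - o i ∈ W j i}, w j a.1 ≤
        Fintype.card J * ((k j : ℝ≥0∞) / m * ∑' a, w j a) := by
  classical
  refine macro_average w (fun j a (o : Fin d → ZMod m) => ∃ i ∈ I j a, ((p j a i : ℤ) : ZMod m) - o i ∈ W j i)
    (fun j => (k j : ℝ≥0∞) / m) ?_
  intro j a
  refine (card_hit (I j a) (fun i => ((p j a i : ℤ) : ZMod m)) (W j)).trans ?_
  gcongr
  exact hk j a

end

end Crest.Agent.R96.Mac1_199
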