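import Crest.Agent.R96.Poi2_392

/-!
# Row 96, P6-PURE (helper392): random Riemann sums

`T m g θ = ∑' k : ℤ, g ((k + θ) / m) / m`. For `g : ℝ → ℝ≥0∞` measurable with finite integral, the
`T m g` converge to `∫⁻ g` in `L¹(0,1)` (in `θ`) as `m → ∞`; exact expectation `∫_0^1 T m g = ∫ g`.
Use: `g` = Banach indicatrix of one component on an edge, `T m g θ` = (number of crossings of the edge
with the levels `(k + θ) / m`) / `m`.
-/

set_option autoImplicit false

open MeasureTheory Set Filter Topology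
open scoped ENNReal

namespace Crest.Agent.R96.Riem_392

/-- distance in `ℝ≥0∞` -/
noncomputable def dd (a b : ℝ≥0∞) : ℝ≥0∞ := (a - b) + (b - a)

theorem dd_comm (a b : ℝ≥0∞) : dd a b = dd b a := add_comm _ _

theorem le_add_dd (a b : ℝ≥0∞) : a ≤ b + dd a b := by
  have : a ≤ b + (a - b) := le_add_tsub
  exact this.trans (by unfold dd; gcongr; exact le_self_add)

theorem dd_ofReal {a : ℝ≥0∞} (ha : a ≠ ∞) {b : ℝ} (hb : 0 ≤ b) :
    dd a (ENNReal.ofReal b) = ‖a.toReal - b‖ₑ := by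
  lift a to NNReal using ha
  lift b to NNReal using hb
  unfold dd
  simp only [ENNReal.ofReal_coe_nnreal, ENNReal.coe_toReal]
  rcases le_total a b with h | h
  · rw [tsub_eq_zero_of_le (by exact_mod_cast h), zero_add, ← ENNReal.coe_sub]
    have : ‖(a : ℝ) - (b : ℝ)‖ₑ = ENNReal.ofReal ((b : ℝ) - a) := by
      rw [Real.enorm_eq_ofReal_abs, abs_of_nonpos (by simpa using h)]
      congr 1; ring
    rw [this, ← NNReal.coe_sub h, ENNReal.ofReal_coe_nnreal]
  · rw [tsub_eq_zero_of_le (by exact_mod_cast h : (b : ℝ≥0∞) ≤ a), add_zero, ← ENNReal.coe_sub]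
    have : ‖(a : ℝ) - (b : ℝ)‖ₑ = ENNReal.ofReal ((a : ℝ) - b) := by
      rw [Real.enorm_eq_ofReal_abs, abs_of_nonneg (by simpa using h)]
    rw [this, ← NNReal.coe_sub h, ENNReal.ofReal_coe_nnreal]

theorem dd_tsum_le {κ : Type*} (t i : κ → ℝ≥0∞) :
    dd (∑' k, t k) (∑' k, i k) ≤ ∑' k, dd (t k) (i k) := by
  have key : ∀ t i : κ → ℝ≥0∞, (∑' k, t k) - (∑' k, i k) ≤ ∑' k, (t k - i k) := by
    intro t i
    rw [tsub_le_iff_right, ← ENNReal.tsum_add]
    exact ENNReal.tsum_le_tsum fun k => le_tsub_add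
  unfold dd
  rw [ENNReal.tsum_add]
  exact add_le_add (key t i) (key i t)

/-- the random Riemann sum -/
noncomputable def T (m : ℕ) (g : ℝ → ℝ≥0∞) (θ : ℝ) : ℝ≥0∞ :=
  ∑' k : ℤ, g (((k : ℝ) + θ) / m) / m

/-- the cell -/
def Qc (m : ℕ) (k : ℤ) : Set ℝ := Ico ((k : ℝ) / m) (((k : ℝ) + 1) / m)

theorem measurableSet_Qc (m : ℕ) (k : ℤ) : MeasurableSet (Qc m k) := measurableSet_Ico

theorem volume_Qc {m : ℕ} (k : ℤ) : volume (Qc m k) = ENNReal.ofReal (1 / m) := by
  unfold Qc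
  rw [Real.volume_Ico]
  congr 1
  ring

theorem mem_Qc_iff {m : ℕ} (hm : 0 < m) (k : ℤ) (x : ℝ) : x ∈ Qc m k ↔ ⌊x * m⌋ = k := by
  have hm' : (0 : ℝ) < m := by exact_mod_cast hm
  unfold Qc
  rw [mem_Ico, Int.floor_eq_iff, div_le_iff₀ hm', lt_div_iff₀ hm']

theorem disj_Qc {m : ℕ} (hm : 0 < m) : Pairwise (fun i j => Disjoint (Qc m i) (Qc m j)) := by
  intro i j hij
  rw [Set.disjoint_left]
  intro x hi hj
  rw [mem_Qc_iff hm] at hi hj
  exact hij (hi.symm.trans hj)

theorem iUnion_Qc {m : ℕ} (hm : 0 < m) : ⋃ k, Qc m k = univ := by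
  rw [eq_univ_iff_forall]
  intro x
  rw [mem_iUnion]
  exact ⟨⌊x * m⌋, (mem_Qc_iff hm _ _).2 rfl⟩

theorem image_Qc {m : ℕ} (hm : 0 < m) (k : ℤ) :
    (fun θ : ℝ => ((k : ℝ) + θ) / m) '' Ico 0 1 = Qc m k := by
  have hm' : (0 : ℝ) < m := by exact_mod_cast hm
  ext x
  simp only [mem_image, mem_Ico, Qc]
  constructor
  · rintro ⟨θ, ⟨h0, h1⟩, rfl⟩
    constructor
    · gcongr; linarith
    · gcongr
  · rintro ⟨h0, h1⟩
    rw [div_le_iff₀ hm'] at h0
    rw [lt_div_iff₀ hm'] at h1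
    refine ⟨x * m - k, ⟨by linarith, by linarith⟩, ?_⟩
    field_simp
    ring

/-- change of variables on one cell -/
theorem lintegral_cell {m : ℕ} (hm : 0 < m) (k : ℤ) (F : ℝ → ℝ≥0∞) :
    ∫⁻ x in Qc m k, F x = ∫⁻ θ in Ico (0 : ℝ) 1, F (((k : ℝ) + θ) / m) / m := by
  have hm' : (0 : ℝ) < m := by exact_mod_cast hm
  rw [← image_Qc hm k, lintegral_image_eq_lintegral_abs_deriv_mul measurableSet_Ico
    (f' := fun _ => 1 / (m : ℝ)) (f := fun θ : ℝ => ((k : ℝ) + θ) / m)]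
  · refine lintegral_congr fun θ => ?_
    rw [abs_of_pos (by positivity), ENNReal.ofReal_div_of_pos hm', ENNReal.ofReal_one,
      ENNReal.ofReal_natCast, ENNReal.div_eq_inv_mul, ENNReal.div_eq_inv_mul, mul_one]
  · intro x _
    have h1 : HasDerivAt (fun θ : ℝ => ((k : ℝ) + θ) / m) (1 / m) x := by
      simpa using ((hasDerivAt_id x).const_add (k : ℝ)).div_const (m : ℝ)
    exact h1.hasDerivWithinAt
  · intro x _ y _ h
    have h2 : ((k : ℝ) + x) / m = ((k : ℝ) + y) / m := h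
    rw [div_left_inj' hm'.ne'] at h2
    linarith

theorem lintegral_cells {m : ℕ} (hm : 0 < m) (F : ℝ → ℝ≥0∞) :
    ∑' k : ℤ, ∫⁻ x in Qc m k, F x = ∫⁻ x, F x := by
  rw [← lintegral_iUnion (measurableSet_Qc m) (disj_Qc hm), iUnion_Qc hm, setLIntegral_univ]

/-- exact expectation -/
theorem lintegral_T {m : ℕ} (hm : 0 < m) {g : ℝ → ℝ≥0∞} (hg : Measurable g) :
    ∫⁻ θ in Ico (0 : ℝ) 1, T m g θ = ∫⁻ x, g x := by
  unfold T
  rw [lintegral_tsum]
  · rw [← lintegral_cells hm g]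
    refine tsum_congr fun k => ?_
    rw [lintegral_cell hm]
  · intro k
    exact ((hg.comp (by fun_prop)).div_const _).aemeasurable

theorem measurable_T (m : ℕ) {g : ℝ → ℝ≥0∞} (hg : Measurable g) : Measurable (T m g) := by
  unfold T
  exact Measurable.tsum fun k => (hg.comp (by fun_prop)).div_const _

/-- **random Riemann sums converge in `L¹`** -/
theorem riem {g : ℝ → ℝ≥0∞} (hg : Measurable g) (hfin : ∫⁻ x, g x ≠ ∞) {ε : ℝ≥0∞} (hε : ε ≠ 0) :
    ∃ M : ℕ, 0 < M ∧ ∀ m : ℕ, M ≤ m →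
      ∫⁻ θ in Ico (0 : ℝ) 1, dd (T m g θ) (∫⁻ x, g x) ≤ ε := by
  have hae : ∀ᵐ x, g x ≠ ∞ := (ae_lt_top hg hfin).mono fun x h => h.ne
  set G : ℝ → ℝ := fun x => (g x).toReal with hG
  have hGm : Measurable G := hg.ennreal_toReal
  have hGi : Integrable G := integrable_toReal_of_lintegral_ne_top hg.aemeasurable hfin
  have hGL : MemLp G (ENNReal.ofReal 1) volume := by
    rw [ENNReal.ofReal_one]; exact memLp_one_iff_integrable.2 hGi
  obtain ⟨r, hr, hcell⟩ := Poi_392.cell_average le_rfl hGL hε ℤ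
  obtain ⟨M, hM⟩ := exists_nat_gt (1 / r)
  have hM0 : 0 < M := by
    have : (0 : ℝ) < M := lt_trans (by positivity) hM
    exact_mod_cast this
  refine ⟨M, hM0, fun m hm => ?_⟩
  have hm0 : 0 < m := lt_of_lt_of_le hM0 hm
  have hm' : (0 : ℝ) < m := by exact_mod_cast hm0
  have hvol : ∀ k, volume (Qc m k) = ENNReal.ofReal (1 / m) := fun k => volume_Qc k
  have hvol0 : ∀ k, volume (Qc m k) ≠ 0 := by
    intro k; rw [hvol, Ne, ENNReal.ofReal_eq_zero, not_le]; positivity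
  have hvolt : ∀ k, volume (Qc m k) ≠ ∞ := by
    intro k; rw [hvol]; exact ENNReal.ofReal_ne_top
  have h1 := hcell (Qc m) (measurableSet_Qc m) (disj_Qc hm0) hvol0 hvolt (by
    intro k x hx y hy
    unfold Qc at hx hy
    rw [Real.dist_eq, abs_le]
    have h2 : ((k : ℝ) + 1) / m = k / m + 1 / m := by ring
    have h3 : 1 / (m : ℝ) ≤ r := by
      rw [div_le_iff₀ hm']
      have : 1 < r * M := by rw [div_lt_iff₀ hr] at hM; linarith
      have h4 : (M : ℝ) ≤ m := by exact_mod_cast hm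
      nlinarith
    rw [mem_Ico, h2] at hx hy
    constructor <;> linarith [hx.1, hx.2, hy.1, hy.2])
  simp only [ENNReal.rpow_one] at h1
  -- the averages
  set a : ℤ → ℝ := fun k => ⨍ y in Qc m k, G y with ha
  have ha0 : ∀ k, 0 ≤ a k := fun k => by
    simp only [ha]
    rw [setAverage_eq]
    exact smul_nonneg (by positivity) (setIntegral_nonneg (measurableSet_Qc m k) fun x _ => ENNReal.toReal_nonneg)
  have hint : ∀ k, ∫⁻ x in Qc m k, g x = ENNReal.ofReal (a k) / m := by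
    intro k
    have h2 : ∫⁻ x in Qc m k, g x = ENNReal.ofReal (∫ x in Qc m k, G x) := by
      rw [ofReal_integral_eq_lintegral_ofReal hGi.integrableOn (ae_of_all _ fun x => ENNReal.toReal_nonneg)]
      refine lintegral_congr_ae ?_
      filter_upwards [ae_restrict_of_ae hae] with x hx
      rw [ENNReal.ofReal_toReal hx]
    rw [h2]
    have h3 : a k = m * ∫ x in Qc m k, G x := by
      simp only [ha]
      rw [setAverage_eq, smul_eq_mul, measureReal_def, hvol, ENNReal.toReal_ofReal (by positivity)]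
      simp
    rw [h3, ENNReal.ofReal_mul (by positivity), ENNReal.ofReal_natCast]
    rw [mul_div_assoc, ENNReal.mul_div_cancel (by exact_mod_cast hm0.ne') (ENNReal.natCast_ne_top m)]
  have htot : ∫⁻ x, g x = ∑' k : ℤ, ENNReal.ofReal (a k) / m := by
    rw [← lintegral_cells hm0 g]
    exact tsum_congr hint
  calc ∫⁻ θ in Ico (0 : ℝ) 1, dd (T m g θ) (∫⁻ x, g x)
      ≤ ∫⁻ θ in Ico (0 : ℝ) 1, ∑' k : ℤ, dd (g (((k : ℝ) + θ) / m)) (ENNReal.ofReal (a k)) / m := by
        refine lintegral_mono fun θ => ?_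
        rw [htot]
        refine (dd_tsum_le _ _).trans (ENNReal.tsum_le_tsum fun k => ?_)
        unfold dd
        rw [ENNReal.div_add_div_same.symm]
        have hsub : ∀ x y : ℝ≥0∞, x / m - y / m = (x - y) / m := by
          intro x y
          rw [ENNReal.div_eq_inv_mul, ENNReal.div_eq_inv_mul, ENNReal.div_eq_inv_mul,
            ENNReal.mul_sub]
          intro _ _
          exact ENNReal.inv_ne_top.2 (by exact_mod_cast hm0.ne')
        rw [hsub, hsub]
    _ = ∑' k : ℤ, ∫⁻ θ in Ico (0 : ℝ) 1,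
          dd (g (((k : ℝ) + θ) / m)) (ENNReal.ofReal (a k)) / m := by
        rw [lintegral_tsum]
        intro k
        unfold dd
        have : Measurable fun θ : ℝ => g (((k : ℝ) + θ) / m) := hg.comp (by fun_prop)
        exact (((this.sub_const _).add (measurable_const.sub this)).div_const _).aemeasurable
    _ = ∑' k : ℤ, ∫⁻ x in Qc m k, dd (g x) (ENNReal.ofReal (a k)) := by
        refine tsum_congr fun k => ?_
        rw [lintegral_cell hm0 k (fun x => dd (g x) (ENNReal.ofReal (a k)))]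
    _ = ∑' k : ℤ, ∫⁻ x in Qc m k, ‖G x - a k‖ₑ := by
        refine tsum_congr fun k => lintegral_congr_ae ?_
        filter_upwards [ae_restrict_of_ae hae] with x hx
        rw [dd_ofReal hx (ha0 k)]
    _ ≤ ε := h1

/-- finitely many edges at once: most offsets are good -/
theorem riem_finset {κ : Type*} (s : Finset κ) {g : κ → ℝ → ℝ≥0∞} (hg : ∀ e ∈ s, Measurable (g e))
    (hfin : ∀ e ∈ s, ∫⁻ x, g e x ≠ ∞) {ε : ℝ≥0∞} (hε : ε ≠ 0) :
    ∃ M : ℕ, 0 < M ∧ ∀ m : ℕ, M ≤ m →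
      ∫⁻ θ in Ico (0 : ℝ) 1, ∑ e ∈ s, dd (T m (g e) θ) (∫⁻ x, g e x) ≤ ε := by
  classical
  by_cases hεt : ε = ∞
  · exact ⟨1, one_pos, fun m _ => by rw [hεt]; exact le_top⟩
  have hδ : ε / (s.card + 1) ≠ 0 := by
    rw [Ne, ENNReal.div_eq_zero_iff]
    push Not
    exact ⟨hε, by exact_mod_cast ENNReal.natCast_ne_top (s.card + 1)⟩
  choose! M hM0 hM using fun e (he : e ∈ s) => riem (hg e he) (hfin e he) hδ
  refine ⟨∑ e ∈ s, M e + 1, by omega, fun m hm => ?_⟩
  rw [lintegral_finsetSum']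
  · calc ∑ e ∈ s, ∫⁻ θ in Ico (0 : ℝ) 1, dd (T m (g e) θ) (∫⁻ x, g e x)
        ≤ ∑ e ∈ s, ε / (s.card + 1) := by
          refine Finset.sum_le_sum fun e he => hM e he m ?_
          have := Finset.single_le_sum (f := M) (fun e _ => Nat.zero_le _) he
          omega
      _ = s.card * (ε / (s.card + 1)) := by rw [Finset.sum_const, nsmul_eq_mul]
      _ ≤ (s.card + 1) * (ε / (s.card + 1)) := by gcongr; exact le_self_add
      _ ≤ ε := ENNReal.mul_div_le
  · intro e he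
    unfold dd
    exact ((measurable_T m (hg e he)).sub_const _).add
      (measurable_const.sub (measurable_T m (hg e he))) |>.aemeasurable

end Crest.Agent.R96.Riem_392
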